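import Mathlib
import Vale.Agent.P209.Asymptotic

namespace Vale.Agent.Results.P209.AlmostFullPacking

open Vale.Agent.P209

/-- Sufficiency in the two-condition packing conjecture up to an arbitrarily small volume loss,
when all but at most `2 ^ n` balls are small. -/
theorem result (n : ℕ) (hn : 1 ≤ n) (ε : ℝ) (hε : 0 < ε) :
    ∃ δ : ℝ, 0 < δ ∧ ∀ (k : ℕ) (R : ℝ) (r : Fin k → ℝ), 0 < R → (∀ i, 0 < r i) →
      (∀ i j, i ≠ j → r i + r j < R) → (∑ i, r i ^ n ≤ (1 - ε) * R ^ n) →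
      (Finset.univ.filter fun i => δ * R < r i).card ≤ 2 ^ n → Packs n R r := by
  obtain ⟨m, rfl⟩ : ∃ m, n = m + 1 := ⟨n - 1, by omega⟩
  exact packs_asymptotic ε hε

end Vale.Agent.Results.P209.AlmostFullPacking
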