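import Mathlib
import Vale.Agent.P209.Packing

namespace Vale.Agent.Results.P209.BallPacking

open Vale.Agent.P209

/-- Sufficiency in the two-condition packing conjecture, for at most `2 ^ n` balls, for one
dominant ball with at most a shell's worth of others, and for arbitrarily many balls up to
a dimensional constant in the residual volume. -/
theorem result (n k : ℕ) (hn : 1 ≤ n) (R : ℝ) (hR : 0 < R) (r : Fin k → ℝ)
    (hr : ∀ i, 0 < r i) (hvol : ∑ i, r i ^ n < R ^ n)
    (hpair : ∀ i j, i ≠ j → r i + r j < R)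
    (h : k ≤ 2 ^ n ∨
      (∃ i₀ : Fin k, ∃ q : ℕ, q * (R - r i₀) ≤ r i₀ ∧ k ≤ 1 + ((q + 1) ^ n - q ^ n)) ∨
      (∃ i₀ : Fin k, n * (4 : ℝ) ^ n * ∑ j ∈ Finset.univ.erase i₀, r j ^ n ≤
        R ^ n - r i₀ ^ n)) :
    Packs n R r := by
  obtain ⟨m, rfl⟩ : ∃ m, n = m + 1 := ⟨n - 1, by omega⟩
  have hlt : ∀ i, r i < R := fun i => by
    refine lt_of_pow_lt_pow_left₀ (m + 1) hR.le (lt_of_le_of_lt ?_ hvol)
    exact Finset.single_le_sum (f := fun i => r i ^ (m + 1))
      (fun j _ => (pow_pos (hr j) _).le) (Finset.mem_univ i)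
  rcases h with h | ⟨i₀, q, hq, h⟩ | ⟨i₀, h⟩
  · exact packs_few hlt hpair h
  · exact packs_ratio hpair (hlt i₀) hq h
  · exact packs_volume hr hpair i₀ (hlt i₀) (by exact_mod_cast h)

end Vale.Agent.Results.P209.BallPacking
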